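import Vale.Agent.P123.Bdl.B2

namespace Vale.Agent.Results.P123.Crouzeix

/-- Crouzeix's conjecture: the least constant `C` with
`‖P(A)‖ ≤ C * sup_{z ∈ W(A)} |P(z)|`, for all bounded operators `A` on all nonzero complex Hilbert
spaces and all polynomials `P`, is exactly `2`.  Here `W(A) = {⟨Ax, x⟩ : ‖x‖ = 1}`. -/
theorem result.{u} : IsLeast {C : ℝ | ∀ (H : Type u) [NormedAddCommGroup H]
    [InnerProductSpace ℂ H] [CompleteSpace H] [Nontrivial H] (A : H →L[ℂ] H) (P : Polynomial ℂ),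
    ‖Polynomial.aeval A P‖ ≤
      C * sSup ((fun z => ‖P.eval z‖) '' {z : ℂ | ∃ x : H, ‖x‖ = 1 ∧ inner ℂ x (A x) = z})} 2 := by
  refine ⟨?_, fun C hC => Vale.Agent.P123.two_le_of_bound hC⟩
  intro H _ _ _ _ A P
  exact Vale.Agent.P123.crouzeix_bound A P

end Vale.Agent.Results.P123.Crouzeix
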